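import Vale.Agent.Lib.P331.Meas

/-!
# One-sample matroid prophet inequality against the almighty adversary: loaded and isolated elements

For every finite matroid `M` and every `p` in `(0, 1]` two deterministic measurable one-sample
rules are given (a seed chooses one of them with probability one half each).  Against the almighty
adversary their mean has ratio `p ^ 2 / (32 * K)` for all laws for which every element is
loaded (with parameters `p`, `K`) or isolated (with parameter `p`).
-/

open MeasureTheory Set
open scoped ENNReal NNReal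

namespace Vale.Agent.Results.P331.LoadedOrIsolated

open Vale.Agent.P331

theorem result (E : Type) [Fintype E] [DecidableEq E] (M : Matroid E) (hM : M.E = univ)
    (p : ℝ≥0) (hp0 : 0 < p) (hp1 : p ≤ 1) :
    ∃ ρ : Bool → Rule E, (∀ b, RuleMeasurable (ρ b)) ∧
      (∀ b s v l, M.Indep (accepted (ρ b) s v l : Set E)) ∧
      ∀ K : ℝ≥0, 1 ≤ K → ∀ D : E → Measure ℝ≥0, (∀ e, IsProbabilityMeasure (D e)) →
        ∫⁻ v, OPT M v ∂(Measure.pi D) ≠ ⊤ →
        (∀ e, Loaded M D p K e ∨ Isolated M D p e) →
        ∀ order : Bool → (E → ℝ≥0) → (E → ℝ≥0) → List E,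
          (∀ b s v, (order b s v).Nodup ∧ ∀ e, e ∈ order b s v) →
          ((p ^ 2 / (32 * K) : ℝ≥0) : ℝ≥0∞) * ∫⁻ v, OPT M v ∂(Measure.pi D) ≤
            (∑ b : Bool, ∫⁻ z, gain (ρ b) z.1 z.2 (order b z.1 z.2)
              ∂((Measure.pi D).prod (Measure.pi D))) / 2 := by
  obtain ⟨l, h1, h2⟩ := exists_l p hp0 hp1
  refine ⟨fun b => if b then theRule M (WL (2 ^ l)) else theRule M fun _ _ => ∅, ?_, ?_, ?_⟩
  · intro b
    cases b with
    | true => exact ruleMeasurable M _ (measurable_WL _)
    | false => exact ruleMeasurable M _ measurable_const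
  · intro b s v o
    cases b with
    | true => exact indep_accepted M hM _ s v o
    | false => exact indep_accepted M hM _ s v o
  · intro K hK D hprob hOPT hD order ho
    have hc := combine M D hM p K hp0 hp1 hK l h1 h2 hOPT hD (order true) (order false)
      (fun s v => (ho true s v).1) (fun s v => (ho true s v).2)
      (fun s v => (ho false s v).1) (fun s v => (ho false s v).2)
    rw [Fintype.sum_bool]
    exact hc

end Vale.Agent.Results.P331.LoadedOrIsolated
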